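import Vale.Agent.N072.Main

/-! # Permanence: polynomial bounds -/

open Vale.Agent.P072 Vale.Agent.N072

/-- (1) For weakly reversible, and for endotactic, networks: bounds polynomial in the rates, the
class and the initial state, with one exponent `M` for the network.
(2) For every network with a reaction the bound in (1) cannot be smaller than polynomial. -/
theorem Vale.Agent.Results.P072.A0Robust.result :
    (∀ (d : ℕ) (G : Network d), G.WeaklyReversible ∨ G.Endotactic →
      ∃ M : ℕ, ∀ A : ℝ, 2 ≤ A → ∀ k, Admissible G A⁻¹ k →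
        ∀ x, IsGlobalCarSolution (G.tvField k) x →
          (Box A (x 0) → ∀ t ≥ 0, Box (A ^ M) (x t)) ∧
          ∀ c, Box A c → x 0 ∈ G.posClass c → ∀ B ≥ A, Box B (x 0) →
            ∀ t ≥ B ^ M, Box (A ^ M) (x t)) ∧
    ∀ (d : ℕ) (G : Network d), G.reactions.Nonempty → ∃ m : ℕ, ∀ A : ℝ, 2 ≤ A →
      ∃ k : (Fin d → ℕ) × (Fin d → ℕ) → ℝ, (∀ r, (A ^ m)⁻¹ ≤ k r ∧ k r ≤ A ^ m) ∧
        ∀ x, IsGlobalSolution (G.field k) x → ∀ t₀, ∃ t ≥ t₀, ¬ Box A (x t) :=
  ⟨fun _ G h => poly_adm G (h.elim (H603.endotactic_of_weaklyReversible G) id),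
    fun _ G => sharp G⟩
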