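import Vale.Agent.N072T.Main

/-! # Power-law systems with real exponents and toric differential inclusions -/

open Set Vale.Agent.N072T

/-- (1) Power-law systems with real exponents on weakly reversible or endotactic graphs: permanence
for constant rates; global solutions for measurable rates; one absorbing compact set, with entry
times uniform on compact sets, for the differential inclusion of all rates in `[ε, ε⁻¹]`.
(2) Solutions of toric differential inclusions, and their implicit steps of any size, stay in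
compact subsets of the open orthant. -/
theorem Vale.Agent.Results.P072.A0Toric.result :
    (∀ (d m : ℕ) (y v : Fin m → Fin d → ℝ), Reversible y v ∨ Endotactic y v →
      ∀ c : Fin d → ℝ, (∀ i, 0 < c i) →
      (∀ k : Fin m → ℝ, (∀ r, 0 < k r) → Permanent (power y v k) (posClass (range v) c)) ∧
      ∀ ε > 0,
        (∀ k : Fin m → ℝ → ℝ, (∀ r, Measurable (k r)) → (∀ r t, k r t ∈ Icc ε ε⁻¹) →
          ∃ x, x 0 = c ∧ ∀ b ≥ 0, Solves (fun t a => {power y v (fun r => k r t) a}) x b) ∧
        ∃ K ⊆ posClass (range v) c, IsCompact K ∧ ∀ Q ⊆ posClass (range v) c, IsCompact Q →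
          ∃ T, ∃ L ⊆ posClass (range v) c, IsCompact L ∧ ∀ b ≥ 0, ∀ x,
            Solves (fun _ a => {w | ∃ k : Fin m → ℝ, (∀ r, k r ∈ Icc ε ε⁻¹) ∧
              w = power y v k a}) x b → x 0 ∈ Q → x b ∈ L ∧ (T ≤ b → x b ∈ K)) ∧
    ∀ (d : ℕ) (fan : Finset (PointedCone ℝ (Fin d → ℝ))), (∀ C ∈ fan, C.FG) →
      ∀ (δ : ℝ) (Q : Set (Fin d → ℝ)), IsCompact Q → Q ⊆ {x | ∀ i, 0 < x i} →
      ∃ K ⊆ {x | ∀ i, 0 < x i}, IsCompact K ∧
        (∀ b ≥ 0, ∀ x, Solves (fun _ => toric fan δ) x b → x 0 ∈ Q → x b ∈ K) ∧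
        ∀ z : ℕ → Fin d → ℝ, (∀ n i, 0 < z n i) → z 0 ∈ Q →
          (∀ n, z (n + 1) - z n ∈ toric fan δ (z (n + 1))) → ∀ n, z n ∈ K := by
  refine ⟨fun d m y v h c hc => ?_, fun _ => toric_box⟩
  have hG : Endotactic y v := h.elim endo_of_rev id
  exact ⟨fun k hk => permanent_power hG hk hc, fun ε hε =>
    ⟨fun k hm hk => exists_solves hG hε hm hk hc, uniform_power hG hε hc⟩⟩
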